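import Crest.Agent.X212.Geo28.Tp
import Crest.Agent.X212.Cyl58.Int

/-!
# X212 / Geo7 (helper7): recharting of necks

`pdOf`, `mkN` : constructors; `re`, `sh` : change of time; `push` : along a partial diffeomorphism;
`ofT` : the chart of a `TIso`; `cylP` : a cylinder mapped onto a neck.
-/

set_option autoImplicit false
set_option linter.unusedSectionVars false

open Set Filter Topology Function
open scoped ContDiff Manifold
open Crest.Agent.X212.Orx52
open Crest.Agent.X212.Cyl58 (TIso Up ld_comp ld_id ld_prodMap contMDiffAt_of_comp)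

noncomputable section

namespace Crest.Agent.X212.Geo7

open Geo28 Bor5.T

/-- a bijective local diffeomorphism between open sets -/
def pdOf {EA HA EB HB : Type*} [NormedAddCommGroup EA] [NormedSpace ℝ EA] [TopologicalSpace HA]
    [NormedAddCommGroup EB] [NormedSpace ℝ EB] [TopologicalSpace HB] {IA : ModelWithCorners ℝ EA HA}
    {IB : ModelWithCorners ℝ EB HB} {A B : Type*} [TopologicalSpace A] [ChartedSpace HA A]
    [TopologicalSpace B] [ChartedSpace HB B] [Nonempty A] (f : A → B) {U : Set A} {V : Set B}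
    (hU : IsOpen U) (hV : IsOpen V) (hl : ∀ x ∈ U, IsLocalDiffeomorphAt IA IB ∞ f x)
    (hb : BijOn f U V) : PartialDiffeomorph IA IB A B ∞ where
  toFun := f
  invFun := invFunOn f U
  source := U
  target := V
  map_source' := hb.mapsTo
  map_target' := hb.surjOn.mapsTo_invFunOn
  left_inv' := hb.invOn_invFunOn.1
  right_inv' := hb.invOn_invFunOn.2
  open_source := hU
  open_target := hV
  contMDiffOn_toFun x hx := (hl x hx).contMDiffAt.contMDiffWithinAt
  contMDiffOn_invFun y hy := by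
    obtain ⟨x, hx, rfl⟩ := hb.surjOn hy
    refine (contMDiffAt_of_comp (hl x hx) (contMDiffAt_id.congr_of_eventuallyEq ?_)
      ).contMDiffWithinAt
    filter_upwards [hU.mem_nhds hx] with z hz using hb.invOn_invFunOn.1 hz

theorem pos_up {f : ℝ → ℝ} {s : Set ℝ} (h : Up f s) : Pos 𝓘(ℝ, ℝ) 𝓘(ℝ, ℝ) f s oR oR :=
  pos_of_eq (oriOn ori_oR s) (fun x hx => (h x hx).2) fun x hx => by
    rw [pm_oR (h.hasDerivAt hx).differentiableAt.mdifferentiableAt, oR_eq, ← map_smul, Dr59.df]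
    refine congrArg _ (LinearMap.ext_ring ?_)
    simp [Dr59.mf]

variable {A : O3} {X X' : M4} {J J' : Set ℝ}

/-- the identity on an open set -/
def idP (X : M4) {U : Set X.M} (hU : IsOpen U) : PartialDiffeomorph X.I X.I X.M X.M ∞ :=
  pdOf id hU hU (fun x _ => ld_id x) (bijOn_id U)

theorem pos_idP {U : Set X.M} (s : Set X.M) (hU : IsOpen U) : Pos X.I X.I (idP X hU) s X.o X.o :=
  pos_id.2 (oriOn X.ori s).same

section nc
variable (k : Nc A X J)

theorem mem_src {y : A.Y.M} {t : ℝ} : (y, t) ∈ k.k.source ↔ t ∈ J := by simp [k.src]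

theorem tm_k (y : A.Y.M) {t : ℝ} (h : t ∈ J) : k.tm (k.k (y, t)) = t := k.tmk _ ((mem_src k).2 h)

theorem ex_k {p : X.M} (h : k.tm p ∈ J) : ∃ y, k.k (y, k.tm p) = p := by
  obtain ⟨⟨y, t⟩, hx, rfl⟩ := k.k.toPartialEquiv.bijOn.surjOn (k.tgt.ge h)
  exact ⟨y, congrArg (fun s => k.k (y, s)) (k.tmk _ hx)⟩

include k in
theorem isOpen_J : IsOpen J := by
  obtain ⟨y⟩ : Nonempty A.Y.M := inferInstance
  convert k.k.open_source.preimage (Continuous.prodMk_right y)
  exact Set.ext fun _ => (mem_src k).symm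

/-- charts from maps -/
def mkN (f : A.Y.M × ℝ → X.M) (tm : X.M → ℝ) (hc : Continuous tm) (hJ : IsOpen J)
    (hl : ∀ x ∈ univ ×ˢ J, IsLocalDiffeomorphAt (IY A) X.I ∞ f x) (hi : InjOn f (univ ×ˢ J))
    (ht : ∀ x ∈ univ ×ˢ J, tm (f x) = x.2) (hs : ∀ p, tm p ∈ J → ∃ y, f (y, tm p) = p)
    (hp : Pos (IY A) X.I f (univ ×ˢ J) (pr A.o oR) X.o) : Nc A X J :=
  ⟨pdOf f (isOpen_univ.prod hJ) (hJ.preimage hc) hl
    ⟨fun x hx => show tm (f x) ∈ J from (ht x hx).symm ▸ hx.2, hi,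
      fun p hp => let ⟨y, e⟩ := hs p hp; ⟨(y, tm p), ⟨trivial, hp⟩, e⟩⟩, tm, hc, rfl, rfl, ht, hp⟩

/-- change of time -/
def re (hJ : IsOpen J') (f g : ℝ → ℝ) (hf : Up f J') (hg : Continuous g) (h1 : MapsTo f J' J)
    (h2 : ∀ t ∈ J', g (f t) = t) (h3 : ∀ t, g t ∈ J' → f (g t) = t) : Nc A X J' :=
  have m : MapsTo (Prod.map id f) (univ ×ˢ J') k.k.source := fun _ hx => (mem_src k).2 (h1 hx.2)
  have l : ∀ x ∈ univ ×ˢ J', IsLocalDiffeomorphAt (IY A) (IY A) ∞ (Prod.map id f) x :=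
    fun x hx => ld_prodMap (ld_id x.1) (hf.ld hJ hx.2)
  mkN (k.k ∘ Prod.map id f) (fun p => g (k.tm p)) (hg.comp k.cont) hJ
    (fun x hx => ld_comp (ldp _ (m hx)) (l x hx))
    (fun x hx x' hx' e => by
      have := k.k.toPartialEquiv.injOn (m hx) (m hx') e
      exact Prod.ext (congrArg Prod.fst this :)
        ((h2 _ hx.2).symm.trans ((congrArg (g ·.2) this).trans (h2 _ hx'.2))))
    (fun x hx => (congrArg g (k.tmk _ (m hx))).trans (h2 _ hx.2))
    (fun p hp => (ex_k k (h3 _ hp ▸ h1 hp)).imp fun y e =>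
      (congrArg (fun s => k.k (y, s)) (h3 _ hp)).trans e)
    (k.pos.comp ((pos_id.2 (oriOn A.ori univ).same).prodMap (pos_up hf) (fun y _ => ld_id y)
      fun _ => hf.ld hJ) (fun _ => ldp _) l m)

/-- translation of time -/
def sh (hJ : IsOpen J') (d : ℝ) (h : ∀ t ∈ J', t + d ∈ J) : Nc A X J' :=
  re k hJ (· + d) (· - d) (Up.add_const d _) (continuous_sub_right d) h
    (fun t _ => add_sub_cancel_right t d) fun t _ => sub_add_cancel t d

theorem sh_k (hJ : IsOpen J') (d : ℝ) (h) (y t) : (sh k hJ d h).k (y, t) = k.k (y, t + d) := rfl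

theorem sh_tm (hJ : IsOpen J') (d : ℝ) (h) (p) : (sh k hJ d h).tm p = k.tm p - d := rfl

/-- push forward -/
def push (l : PartialDiffeomorph X.I X'.I X.M X'.M ∞) (pl : Pos X.I X'.I l l.source X.o X'.o)
    (tm : X'.M → ℝ) (hc : Continuous tm) (hs : ∀ p, k.tm p ∈ J → p ∈ l.source)
    (ht : ∀ q, tm q ∈ J → q ∈ l.target) (h : ∀ p ∈ l.source, tm (l p) = k.tm p) : Nc A X' J :=
  have s : univ ×ˢ J ⊆ k.k.source := k.src.ge
  have m : MapsTo k.k (univ ×ˢ J) l.source := fun x hx => hs _ ((k.tmk x (s hx)).symm ▸ hx.2)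
  mkN (l ∘ k.k) tm hc (isOpen_J k) (fun _ hx => ld_comp (ldp _ (m hx)) (ldp _ (s hx)))
    (l.toPartialEquiv.injOn.comp (k.k.toPartialEquiv.injOn.mono s) m)
    (fun x hx => (h _ (m hx)).trans (k.tmk x (s hx)))
    (fun q hq => by
      obtain ⟨p, hp, rfl⟩ := l.toPartialEquiv.bijOn.surjOn (ht q hq)
      have e : tm (l p) = k.tm p := h p hp
      obtain ⟨y, e'⟩ := ex_k k (e ▸ hq)
      exact ⟨y, congrArg l ((congrArg (fun s => k.k (y, s)) e).trans e')⟩)
    (pl.comp (k.pos.mono s) (fun _ => ldp _) (fun _ hx => ldp _ (s hx)) m)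

/-- a cylinder is mapped onto the neck -/
def cylP (φ : (A.Y.M × ℝ) ≃ₘ^∞⟮IY A, X'.I⟯ X'.M) : PartialDiffeomorph X'.I X.I X'.M X.M ∞ :=
  pdOf (k.k ∘ φ.symm) (U := φ.symm ⁻¹' k.k.source) (k.k.open_source.preimage φ.symm.continuous)
    k.k.open_target (fun x hx => ld_comp (ldp _ hx) (φ.symm.isLocalDiffeomorph x))
    (k.k.toPartialEquiv.bijOn.comp (φ.symm.toEquiv.bijective.bijOn_preimage))

variable (φ : (A.Y.M × ℝ) ≃ₘ^∞⟮IY A, X'.I⟯ X'.M)

theorem cylP_apply (x) : cylP k φ (φ x) = k.k x := congrArg k.k (φ.symm_apply_apply x)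

theorem cylP_src {y t} : φ (y, t) ∈ (cylP k φ).source ↔ t ∈ J := by
  rw [← mem_src k (y := y), ← φ.symm_apply_apply (y, t)]
  rw [φ.apply_symm_apply]
  rfl

theorem cylP_pos (h : Pos (IY A) X'.I φ univ (pr A.o oR) X'.o) :
    Pos X'.I X.I (cylP k φ) (cylP k φ).source X'.o X.o :=
  k.pos.comp (Pos.mono (Pos.symm (φ := φ.toPartialDiffeomorph) h subset_rfl)
    fun x _ => ⟨φ.symm x, trivial, φ.apply_symm_apply x⟩) (fun _ => ldp _)
    (fun x _ => φ.symm.isLocalDiffeomorph x) fun _ => id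

/-- the time of a chart that is part of a global chart -/
theorem tm_of {ψ : A.Y.M × ℝ → X.M} (hψ : Injective ψ) {d : ℝ}
    (h : ∀ y, ∀ t ∈ J, ψ (y, t + d) = k.k (y, t)) (y : A.Y.M) (s : ℝ) :
    (s - d ∈ J → k.tm (ψ (y, s)) = s - d) ∧ (k.tm (ψ (y, s)) ∈ J → k.tm (ψ (y, s)) = s - d) :=
  ⟨fun j => by rw [← tm_k k y j, ← h y _ j, sub_add_cancel], fun j =>
    let ⟨z, e⟩ := ex_k k j; eq_sub_of_add_eq (congrArg Prod.snd (hψ ((h z _ j).trans e)))⟩

end nc

/-- the chart of an end of a `W4` -/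
def ofT (W : W4) (k : TIso A.cyl W.X J) (h : TPos k (pr A.o oR) W.o) : Nc A (m4 W) J :=
  ⟨k.φ, W.X.τ, W.X.cont, k.src.trans (Set.ext fun _ => (and_iff_right trivial).symm), k.tgt,
    fun x hx => k.tm x (k.src.le hx), Pos.mono h k.src.le⟩

theorem ec_cont : ∀ {a : Option O3} (k : Ec a X J), Continuous k.tm
  | none, _ => continuous_const
  | some _, k => Nc.cont k

theorem mt_id (r : ℝ) : ∀ {a : Option O3} (k : Ec a X J), Ec.Mt r id k k
  | none, _ => trivial
  | some _, _ => fun _ _ _ _ => rfl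

theorem ag_id (l : Filter ℝ) : ∀ {a : Option O3} (k : Ec a X J), Ec.Ag l id k k
  | none, _ => trivial
  | some _, _ => ⟨0, .of_forall fun _ _ => by rw [add_zero]; rfl⟩

end Crest.Agent.X212.Geo7
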