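import Crest.Agent.X212.Geo28.Lv
import Crest.Agent.X212.Geo7.Re

/-!
# X212 / Geo7 (helper7): GEO-ABS, a piece absorbs a cylinder
-/

set_option autoImplicit false
set_option linter.unusedSectionVars false

open Set Filter Topology Function
open scoped ContDiff Manifold
open Crest.Agent.X212.Orx52
open Crest.Agent.X212.Rod53 (E4)

noncomputable section

namespace Crest.Agent.X212.Geo7

open Geo28 Bor5.T

variable {a b c : Option O3} {B : O3}

/-- the piece with the boxes of two pieces -/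
def mkP {X : M4} (e : En2 a b X) {n₁ n₂ : ℕ}
    (bx : Fin n₁ ⊕ Fin n₂ → PartialDiffeomorph (𝓡 4) X.I E4 X.M ∞) (src : ∀ j, (bx j).source = univ)
    (core : ∀ j y, bx j y ∈ e.pm.Core) : Pm a b none :=
  { e.pm with
    nb := n₁ + n₂
    bx := fun j => bx (finSumFinEquiv.symm j)
    src := fun _ => src _
    core := fun _ => core _ }

/-- a box is carried along -/
theorem box_src {T : Pm a b none} {X : M4} {l : PartialDiffeomorph T.X.I X.I T.M X.M ∞}
    (h : T.Core ⊆ l.source) (j : Fin T.nb) : ((T.bx j).trans l).source = univ :=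
  eq_univ_of_forall fun y => ⟨(T.src j).ge trivial, h (T.core j y)⟩

theorem box_bxs {T : Pm a b none} {X : M4} {l : PartialDiffeomorph T.X.I X.I T.M X.M ∞}
    (h : T.Core ⊆ l.source) (pl : Pos T.X.I X.I l l.source T.X.o X.o) {K : Set X.M}
    (m : MapsTo l T.Core K) (hb : T.Bxs) (j : Fin T.nb) : ∃ f : E4 → X.M, Cyl58.IsOE (𝓡 4) X.I f ∧
      Pos (𝓡 4) X.I f univ o4 X.o ∧ (∀ y, f y ∈ K) ∧
        ∀ y, (T.bx j).trans l y = f (OpenPartialHomeomorph.univUnitBall y) :=
  let ⟨f, h1, h2, h3, h4⟩ := hb j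
  ⟨l ∘ f, .of_pd l h1 fun y => h (h3 y), pl.comp h2 (fun _ => ldp _) (fun y _ => h1.loc y)
    fun y _ => h (h3 y), fun y => m (h3 y), fun y => congrArg l (h4 y)⟩

/-- the pieces glued along `g`, with all boxes -/
theorem exists_cm {T₁ : Pm a (some B) none} {T₂ : Pm (some B) c none} {X : M4} (e : En2 a c X)
    (g : Gl3 (A := B) T₁.ko T₂.ki X) (hi : Ec.Mt 0 g.l T₁.ki e.ki) (ho : Ec.Mt 0 g.r T₂.ko e.ko)
    (m₁ : MapsTo g.l T₁.Core e.pm.Core) (m₂ : MapsTo g.r T₂.Core e.pm.Core) :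
    ∃ (n : ℕ) (bx : Fin n → _) (src core : _) (g' : Cm T₁ T₂
      { e.pm with nb := n, bx := bx, src := src, core := core }), g'.toGl3 = g ∧
      (T₁.Bxs → T₂.Bxs → Pm.Bxs { e.pm with nb := n, bx := bx, src := src, core := core }) := by
  have s₁ : T₁.Core ⊆ g.l.source := fun p hp => g.ls.ge (hp.2.1.trans_lt four_pos)
  have s₂ : T₂.Core ⊆ g.r.source := fun p hp => g.rs.ge (lt_of_lt_of_le (by norm_num) hp.1)
  let f := Sum.elim (fun j => (T₁.bx j).trans g.l) fun j => (T₂.bx j).trans g.r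
  let T := mkP e f (Sum.rec (box_src s₁) (box_src s₂))
    (Sum.rec (fun j y => m₁ (T₁.core j y)) fun j y => m₂ (T₂.core j y))
  refine ⟨_, T.bx, T.src, T.core, ⟨g, hi, ho, finSumFinEquiv, fun j y => ?_, fun j y => ?_⟩, rfl,
    fun h₁ h₂ j => ?_⟩
  · exact (congrArg (fun i => f i y) (finSumFinEquiv.symm_apply_apply (.inl j))).symm
  · exact (congrArg (fun i => f i y) (finSumFinEquiv.symm_apply_apply (.inr j))).symm
  · obtain ⟨j, rfl⟩ := finSumFinEquiv.surjective j
    simp only [T, mkP, Equiv.symm_apply_apply]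
    exact Sum.rec (box_bxs s₁ g.pl m₁ h₁) (box_bxs s₂ g.pr m₂ h₂) j

/-- the times on a cylinder -/
theorem cyl_tm {C : Pm (some B) (some B) none} {φ : B.Y.M × ℝ → C.M} (hφ : Injective φ)
    (hi : ∀ y, ∀ t < (0 : ℝ), φ (y, t - 2) = Nc.k (A := B) C.ki (y, t))
    (ho : ∀ y, ∀ t > (0 : ℝ), φ (y, t + 2) = Nc.k (A := B) C.ko (y, t)) (y : B.Y.M) (s : ℝ) :
    (-4 < C.ki.tm (φ (y, s)) ↔ -6 < s) ∧ (C.ko.tm (φ (y, s)) < 4 ↔ s < 6) ∧
      (φ (y, s) ∈ C.Core → -2 ≤ s ∧ s ≤ 2) := by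
  obtain ⟨a1, a2⟩ := tm_of (A := B) C.ki hφ (d := -2) hi y s
  obtain ⟨b1, b2⟩ := tm_of (A := B) C.ko hφ ho y s
  simp only [mem_Iio, mem_Ioi] at a1 a2 b1 b2
  change (-4 < Nc.tm (A := B) C.ki _ ↔ _) ∧ (Nc.tm (A := B) C.ko _ < 4 ↔ _) ∧
    (0 ≤ Nc.tm (A := B) C.ki _ ∧ Nc.tm (A := B) C.ko _ ≤ 0 ∧ _ → _)
  grind

theorem cpt_of (T : Pm a b none) {f g : T.M → ℝ} (hf : Continuous f) (hg : Continuous g) (d : ℝ)
    (h1 : ∀ p, f p - d ≤ T.ki.tm p) (h2 : ∀ p, T.ko.tm p ≤ g p + d) (R : ℝ) :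
    IsCompact {p | -R ≤ f p ∧ g p ≤ R ∧ (0 : ℝ) ≤ R} :=
  (T.cpt (|R + d|)).of_isClosed_subset ((isClosed_le continuous_const hf).inter
    ((isClosed_le hg continuous_const).inter isClosed_const)) fun p hp =>
    ⟨by linarith [hp.1, h1 p, le_abs_self (R + d)], by linarith [hp.2.1, h2 p, le_abs_self (R + d)],
      abs_nonneg _⟩

/-- **GEO-ABS** -/
theorem abs : AbsStmt where
  o a B T C := fun ⟨φ, hp, hi, ho⟩ _ => by
    have H := cyl_tm φ.injective hi ho
    let k : Nc B T.X (Ioi 0) := T.ko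
    let K := sh k (isOpen_Ioi (a := -6)) 6 fun t (h : -6 < t) => show 0 < t + 6 by linarith
    let e : En2 a (some B) T.X := ⟨T.ki, sh k isOpen_Ioi 8 fun t (h : 0 < t) => show 0 < t + 8 by linarith,
      fun p h => show k.tm p - 8 ≤ 0 by linarith [show k.tm p ≤ 0 from T.io p h],
      cpt_of T (ec_cont _) (ec_cont _) 8 (fun p => by linarith) fun p => (sub_add_cancel _ _).ge⟩
    have rt : ∀ p, p ∈ (cylP K φ).target ↔ 0 < k.tm p := fun p =>
      (Set.ext_iff.1 K.tgt p).trans (show -6 < k.tm p - 6 ↔ _ by grind)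
    let g : Gl3 (A := B) T.ko C.ki T.X :=
      { n := sh k isOpen_Ioo 0 fun t h => by simpa using h.1
        l := idP T.X (isOpen_Iio.preimage k.cont)
        r := cylP K φ
        ls := rfl
        lt := Set.ext fun p => show k.tm p < 4 ↔ k.tm p - 0 < 4 by rw [sub_zero]
        rs := Set.ext fun p => by
          obtain ⟨⟨y, s⟩, rfl⟩ := φ.surjective p
          exact (cylP_src K φ).trans (H y s).1.symm
        rt := Set.ext fun p => (rt p).trans (show _ ↔ 0 < k.tm p - 0 by rw [sub_zero])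
        pl := pos_idP _ _
        pr := cylP_pos K φ hp
        ol := fun y t _ => by rw [sh_k, add_zero]; rfl
        or := fun y t h => by
          rw [← hi y _ (sub_neg.2 h.2), cylP_apply, sh_k, sh_k]; congr 2; ring }
    have c₁ : MapsTo id T.Core e.pm.Core := fun p h =>
      ⟨h.1, show k.tm p - 8 ≤ 0 by linarith [show k.tm p ≤ 0 from h.2.1], le_rfl⟩
    obtain ⟨n, bx, src, core, g', e', hb⟩ := exists_cm e g (mt_id 0 _)
      (fun y t h _ => by rw [← ho y t h]; exact (cylP_apply K φ _).trans (by rw [sh_k, sh_k]; congr 2; ring))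
      c₁ fun p h => by
        obtain ⟨⟨y, s⟩, rfl⟩ := φ.surjective p
        obtain ⟨h1, h2⟩ := (H y s).2.2 h
        have : k.tm (cylP K φ (φ (y, s))) = s + 6 := by
          rw [cylP_apply, sh_k, tm_k k y (show 0 < s + 6 by linarith)]
        exact ⟨le_of_not_gt fun j => by linarith [show k.tm (cylP K φ (φ (y, s))) ≤ 0 from T.io _ j],
          show k.tm (cylP K φ (φ (y, s))) - 8 ≤ 0 by linarith, le_rfl⟩
    refine ⟨_, g', ⟨.refl _ _ _, pos_id.2 (oriOn T.X.ori _).same⟩, by rw [e']; exact fun _ _ => rfl,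
      ag_id _ _, ⟨-8, .of_forall fun t y => ?_⟩, hb, ?_, c₁⟩
    · exact congrArg (fun s => k.k (y, s)) (neg_add_cancel_right t 8).symm
    · rw [e']
      exact fun p h j => ((rt _).1 ((cylP K φ).map_source h)).not_ge j.2.1
  i A b T C := fun ⟨φ, hp, hi, ho⟩ _ => by
    have H := cyl_tm φ.injective hi ho
    let k : Nc A T.X (Iio 0) := T.ki
    let K := sh k (isOpen_Iio (a := 6)) (-6) fun t (h : t < 6) => show t + -6 < 0 by linarith
    let e : En2 (some A) b T.X :=
      ⟨sh k isOpen_Iio (-8) fun t (h : t < 0) => show t + -8 < 0 by linarith, T.ko,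
      fun p (h : k.tm p - -8 < 0) => T.io p (show k.tm p < 0 by linarith),
      cpt_of T (ec_cont _) (ec_cont _) 8 (fun p => show k.tm p - -8 - 8 ≤ k.tm p by linarith)
        fun p => by linarith⟩
    let g : Gl3 (A := A) C.ko T.ki T.X :=
      { n := sh k isOpen_Ioo (-4) fun t h => show t + -4 < 0 by linarith [h.2]
        l := cylP K φ
        r := idP T.X (isOpen_Ioi.preimage k.cont)
        ls := Set.ext fun p => by
          obtain ⟨⟨y, s⟩, rfl⟩ := φ.surjective p
          exact (cylP_src K φ).trans (H y s).2.1.symm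
        lt := K.tgt.trans (Set.ext fun p => show k.tm p - -6 < 6 ↔ k.tm p - -4 < 4 by grind)
        rs := rfl
        rt := Set.ext fun p => show -4 < k.tm p ↔ 0 < k.tm p - -4 by grind
        pl := cylP_pos K φ hp
        pr := pos_idP _ _
        ol := fun y t h => by rw [← ho y _ h.1, cylP_apply, sh_k, sh_k]; congr 2; ring
        or := fun y t _ => rfl }
    obtain ⟨n, bx, src, core, g', e', hb⟩ := exists_cm e g
      (fun y t h _ => by rw [← hi y t h]; exact (cylP_apply K φ _).trans (by rw [sh_k, sh_k]; congr 2; ring))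
      (mt_id 0 _) (fun p h => by
        obtain ⟨⟨y, s⟩, rfl⟩ := φ.surjective p
        obtain ⟨h1, h2⟩ := (H y s).2.2 h
        have : k.tm (cylP K φ (φ (y, s))) = s + -6 := by
          rw [cylP_apply, sh_k, tm_k k y (show s + -6 < 0 by linarith)]
        exact ⟨show 0 ≤ k.tm (cylP K φ (φ (y, s))) - -8 by linarith,
          T.io _ (show k.tm (cylP K φ (φ (y, s))) < 0 by linarith), le_rfl⟩)
      fun p h => ⟨show 0 ≤ k.tm p - -8 by linarith [show 0 ≤ k.tm p from h.1], h.2⟩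
    refine ⟨_, g', ⟨.refl _ _ _, pos_id.2 (oriOn T.X.ori _).same⟩, by rw [e']; exact fun _ _ => rfl,
      ⟨8, .of_forall fun t y => ?_⟩, ag_id _ _, fun h h' => hb h' h⟩
    exact congrArg (fun s => k.k (y, s)) (add_neg_cancel_right t 8).symm

end Crest.Agent.X212.Geo7
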