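import Crest.Agent.X212.Geo28.Lv
import Crest.Agent.X212.Geo7.Re

/-!
# X212 / Geo7 (helper7): GEO-COB and GEO-GLN, normalised ends and gluings
-/

set_option autoImplicit false
set_option linter.unusedSectionVars false

open Set Filter Topology Function
open scoped ContDiff Manifold
open Crest.Agent.X212.Orx52
open Crest.Agent.X212.Cyl58 (TIso Up)
open Crest.Agent.X212.Dr59 (Cs)

noncomputable section

namespace Crest.Agent.X212.Geo7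

open Geo28 Bor5.T

theorem exists_iso {p q : ℝ → ℝ} {a b : ℝ} (hab : a < b) (hp : Up p univ) (hq : Up q univ)
    (h : p a < q b) (tp : Tendsto p atBot atBot) (tq : Tendsto q atTop atTop) :
    ∃ f : ℝ ≃o ℝ, Up f univ ∧ (∀ t ≤ a, f t = p t) ∧ ∀ t, b ≤ t → f t = q t := by
  obtain ⟨l, h1, h2, h3, -⟩ :=
    Cyl58.exists_up_univ hab hp univ_mem (subset_univ _) hq univ_mem (subset_univ _) h
  exact ⟨h1.strictMono.orderIsoOfSurjective l (h1.continuous.surjective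
    (tq.congr' ((eventually_ge_atTop b).mono fun t e => (h3 t e).symm))
    (tp.congr' ((eventually_le_atBot a).mono fun t e => (h2 t e).symm))), h1, h2, h3⟩

theorem cptW (W : W4) {f g : W.M → ℝ} (hf : Continuous f) (hg : Continuous g) {R s s' : ℝ}
    (h1 : ∀ p, -R ≤ f p → s ≤ W.X.τ p) (h2 : ∀ p, g p ≤ R → W.X.τ p ≤ s') :
    IsCompact {p | -R ≤ f p ∧ g p ≤ R ∧ (0 : ℝ) ≤ R} :=
  (W.X.prop s s').of_isClosed_subset ((isClosed_le continuous_const hf).inter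
    ((isClosed_le hg continuous_const).inter isClosed_const)) fun p hp => ⟨h1 p hp.1, h2 p hp.2.1⟩

theorem cs_of {W : W4} {η : W.Fm} (h : Cs W.X.P.I 2 univ η) {s : ℝ} (k : ∀ x, s < W.X.τ x → η x = 0)
    {K : Set W.M} (e : ∀ x, W.X.τ x ≤ s → x ∈ K) : Cs W.X.P.I 2 K η :=
  ⟨h.cl, h.hc, (closure_minimal (fun x (hx : η x ≠ 0) => le_of_not_gt fun j => hx (k x j))
    (isClosed_le W.X.cont continuous_const)).trans e⟩

theorem ag_sh {Y Z : Type} {l : Filter ℝ} {f g : Y × ℝ → Z} (h : Ag l f g) {d : ℝ}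
    (hl : Tendsto (· + d) l l) : Ag l (fun x => f (x.1, x.2 + d)) g :=
  let ⟨δ, e⟩ := h; ⟨d + δ, (hl.eventually e).mono fun t j y => by rw [← add_assoc]; exact j y⟩

variable {A B : O3} {W₁ W₂ W : W4} {a b : ℝ}

/-- the incoming end beyond `s` -/
def inT (W : W4) (k : TIso A.cyl W.X (Iio a)) (h : TPos k (pr A.o oR) W.o) {s : ℝ} (e : s ≤ a) :
    Nc A (m4 W) (Iio 0) := sh (ofT W k h) isOpen_Iio s fun t (j : t < 0) => show t + s < a by linarith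

/-- the outgoing end beyond `s` -/
def outT (W : W4) (k : TIso A.cyl W.X (Ioi b)) (h : TPos k (pr A.o oR) W.o) {s : ℝ} (e : b ≤ s) :
    Nc A (m4 W) (Ioi 0) := sh (ofT W k h) isOpen_Ioi s fun t (j : 0 < t) => show b < t + s by linarith

/-- **GEO-COB** -/
theorem cob : CobStmt := by
  refine ⟨fun A B C => ⟨⟨inT _ C.ki C.pi (min_le_left _ C.b), outT _ C.ko C.po le_rfl,
    fun p (h : C.X.τ p - min C.a C.b < 0) => show C.X.τ p - C.b ≤ 0 by linarith [min_le_right C.a C.b],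
    fun R => cptW C.toW4 (ec_cont _) (ec_cont _) (fun p => le_sub_iff_add_le.1) fun p =>
      sub_le_iff_le_add.1⟩, ⟨_, .of_forall fun _ _ => rfl⟩, ⟨_, .of_forall fun _ _ => rfl⟩⟩,
    fun B C => ?_⟩
  obtain ⟨s, hs⟩ := C.cs.hc.isCompact.bddAbove_image C.X.cont.continuousOn
  obtain ⟨u, hu⟩ := C.lo
  exact ⟨⟨(), outT _ C.ko C.po (le_max_left _ s), fun _ h => (lt_irrefl _ h).elim,
    fun R => cptW C.toW4 (ec_cont _) (ec_cont _) (fun p _ => hu p) fun p => sub_le_iff_le_add.1⟩,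
    ⟨_, .of_forall fun _ _ => rfl⟩, C.cs.cl, C.cs.hc, fun x hx =>
      ⟨le_rfl, sub_nonpos.2 ((hs ⟨x, hx, rfl⟩).trans (le_max_right _ _)), le_rfl⟩⟩

/-- the neck of a gluing -/
theorem exists_gl3 {ko : TIso B.cyl W₁.X (Ioi b)} {ki : TIso B.cyl W₂.X (Iio a)}
    (po : TPos ko (pr B.o oR) W₁.o) (pi : TPos ki (pr B.o oR) W₂.o) (g : Gl W₁ W₂ W ko ki) :
    ∃ (k₁ : Nc B (m4 W₁) (Ioi 0)) (k₂ : Nc B (m4 W₂) (Iio 0)) (g' : Gl3 k₁ k₂ (m4 W))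
      (f₁ f₂ : ℝ ≃o ℝ), g'.l = g.l.φ ∧ g'.r = g.r.φ ∧ Ag atTop k₁.k ko ∧ Ag atBot k₂.k ki ∧
      (∀ p, k₁.tm p = f₁.symm (W₁.X.τ p)) ∧ (∀ p, k₂.tm p = f₂.symm (W₂.X.τ p)) ∧
      f₁ 0 = g.α - g.δ₁ ∧ f₂ 0 = g.β - g.δ₂ := by
  obtain ⟨c, hc, e⟩ : ∃ c, 0 < c ∧ g.β = g.α + c * 4 := ⟨(g.β - g.α) / 4, by linarith [g.lt], by ring⟩
  obtain ⟨f₁, u₁, a₁, b₁⟩ := exists_iso (a := 4) (b := 5) (by norm_num) (.aff (g.α - g.δ₁) hc _)
    (.add_const (g.β - g.δ₁) _) (by linarith)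
    (tendsto_atBot_add_const_left _ _ (tendsto_id.const_mul_atBot hc))
    (tendsto_atTop_add_const_right _ _ tendsto_id)
  obtain ⟨f₂, u₂, a₂, b₂⟩ := exists_iso (a := -5) (b := -4) (by norm_num) (.add_const (g.α - g.δ₂) _)
    (.aff (g.β - g.δ₂) hc _) (by linarith) (tendsto_atBot_add_const_right _ _ tendsto_id)
    (tendsto_atTop_add_const_left _ _ (tendsto_id.const_mul_atTop hc))
  have z₁ : f₁ 0 = g.α - g.δ₁ := (a₁ 0 (by norm_num)).trans (by ring)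
  have z₂ : f₂ 0 = g.β - g.δ₂ := (b₂ 0 (by norm_num)).trans (by ring)
  have w₁ : f₁ 4 = g.β - g.δ₁ := (a₁ 4 le_rfl).trans (by linarith)
  have w₂ : f₂ (-4) = g.α - g.δ₂ := (b₂ _ le_rfl).trans (by linarith)
  let k₁ := re (ofT W₁ ko po) (isOpen_Ioi (a := 0)) f₁ f₁.symm (u₁.mono (subset_univ _))
    f₁.symm.continuous (fun t h => show b < f₁ t by linarith [g.hb, f₁.strictMono h])
    (fun t _ => f₁.symm_apply_apply t) fun t _ => f₁.apply_symm_apply t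
  let k₂ := re (ofT W₂ ki pi) (isOpen_Iio (a := 0)) f₂ f₂.symm (u₂.mono (subset_univ _))
    f₂.symm.continuous (fun t h => show f₂ t < a by linarith [g.ha, f₂.strictMono h])
    (fun t _ => f₂.symm_apply_apply t) fun t _ => f₂.apply_symm_apply t
  have ls : g.l.φ.source = k₁.tm ⁻¹' Iio 4 := g.l.src.trans (Set.ext fun p =>
    (show W₁.X.τ p + g.δ₁ < g.β ↔ W₁.X.τ p < f₁ 4 by grind).trans f₁.symm_apply_lt.symm)
  have lt : ∀ x u : ℝ, ((x - g.α) / c < u ↔ x < g.α + c * u) ∧ (u < (x - g.α) / c ↔ g.α + c * u < x) :=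
    fun x u => by rw [div_lt_iff₀ hc, lt_div_iff₀ hc]; grind
  refine ⟨k₁, k₂, ⟨push (sh k₁ isOpen_Ioo 0 fun t h => by simpa using h.1) g.l.φ (g.pl.mono g.l.src.le)
      (fun q => (W.X.τ q - g.α) / c) ((W.X.cont.sub continuous_const).div_const c)
      (fun p h => ls.ge ((sub_zero _).ge.trans_lt h.2)) (fun q h => g.l.mem_tgt (e ▸ (lt _ _).1.1 h.2))
      fun p h => ?_, g.l.φ, g.r.φ, ls, g.l.tgt.trans (Set.ext fun q => e ▸ (lt _ _).1.symm),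
    g.r.src.trans (Set.ext fun p => (show g.α < W₂.X.τ p + g.δ₂ ↔ f₂ (-4) < W₂.X.τ p by grind).trans
      f₂.lt_symm_apply.symm), g.r.tgt.trans (Set.ext fun q => ?_), g.pl.mono g.l.src.le,
    g.pr.mono g.r.src.le, fun y t _ => congrArg (fun s => g.l.φ (k₁.k (y, s))) (add_zero t).symm,
    fun y t h => ?_⟩, f₁, f₂, rfl, rfl,
    ⟨_, (eventually_ge_atTop 5).mono fun t h y => congrArg (fun s => ko (y, s)) (b₁ t h)⟩,
    ⟨_, (eventually_le_atBot (-5)).mono fun t h y => congrArg (fun s => ki (y, s)) (a₂ t h)⟩,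
    fun _ => rfl, fun _ => rfl, z₁, z₂⟩
  · have h' : W₁.X.τ p + g.δ₁ < g.β := g.l.src.le h
    have : W.X.τ (g.l.φ p) = W₁.X.τ p + g.δ₁ := g.l.tm p h'
    refine (f₁.symm_apply_eq.2 ?_).symm.trans (sub_zero _).symm
    rw [a₁ _ ((lt _ _).1.2 (by linarith)).le, mul_div_cancel₀ _ hc.ne']
    change W₁.X.τ p = _
    linarith
  · exact (show _ ↔ g.α + c * 0 < W.X.τ q by simp).trans (lt _ _).2.symm
  · have := g.ov y (g.α + c * t) ⟨by nlinarith [h.1], by nlinarith [h.2]⟩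
    show g.r (ki (y, f₂ (t - 4))) = g.l (ko (y, f₁ (t + 0)))
    rwa [b₂ _ (by linarith [h.1]), a₁ _ (by linarith [h.2]), eq_comm,
      show g.α - g.δ₁ + c * (t + 0) = g.α + c * t - g.δ₁ by ring,
      show g.β - g.δ₂ + c * (t - 4) = g.α + c * t - g.δ₂ by linarith]

/-- gluing of a cobordism to a piece with the incoming end `i₁` -/
theorem gln0 {x : Option O3} {B C : Q3} (c₂ : Cob B C) {ko : TIso B.cyl W₁.X (Ioi b)}
    (po : TPos ko (pr B.o oR) W₁.o) (g : Gl W₁ c₂.toW4 W ko c₂.ki) (i₁ : Ec x (m4 W₁) (Iio 0))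
    (i : Ec x (m4 W) (Iio 0)) (mt : Ec.Mt 0 g.fl i₁ i) (h₁ : ∀ p, i₁.tm p < 0 → W₁.X.τ p ≤ g.α - g.δ₁)
    (h : ∀ p, i.tm p < 0 → W.X.τ p ≤ g.α) (l₁ : ∀ R, ∃ s, ∀ p, -R ≤ i₁.tm p → s ≤ W₁.X.τ p)
    (l : ∀ R, ∃ s, ∀ p, -R ≤ i.tm p → s ≤ W.X.τ p) {o : C.Y.M × ℝ → W.M}
    (ag : Ag atTop (g.fr ∘ c₂.ko) o) :
    ∃ (e₁ : En2 x (some B.toO3) (m4 W₁)) (e₂ : _) (e : En2 x (some C.toO3) (m4 W)),
      ∃ g' : Cm (B := B.toO3) e₁.pm (En2.pm e₂) e.pm, e₁.ki = i₁ ∧ e.ki = i ∧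
      Ag atTop (Nc.k (A := B.toO3) e₁.ko) ko ∧ OnC c₂ e₂ ∧ Ag atTop (Nc.k (A := C.toO3) e.ko) o ∧
      g'.l = g.l.φ ∧ g'.r = g.r.φ ∧ (∀ p, W₁.X.τ p ≤ g.α - g.δ₁ → e₁.ko.tm p ≤ 0) ∧
      ∀ p, W.X.τ p ≤ g.α → e.ko.tm p ≤ 0 := by
  obtain ⟨k₁, k₂, g', f₁, f₂, el, er, a₁, a₂, t₁, t₂, z₁, z₂⟩ := exists_gl3 po c₂.pi g
  obtain ⟨s, s₁, s₂⟩ : ∃ s, c₂.b ≤ s ∧ g.β - g.δ₂ ≤ s := ⟨_, le_max_left _ _, le_max_right _ _⟩
  have lt := g.lt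
  let o₂ := outT _ c₂.ko c₂.po s₁
  let o' := push (X' := m4 W) o₂ g.r.φ (g.pr.mono g.r.src.le) (fun q => W.X.τ q - (g.δ₂ + s))
    (W.X.cont.sub continuous_const)
    (fun p (j : 0 < c₂.X.τ p - s) => g.r.mem_src (show g.α < c₂.X.τ p + g.δ₂ by linarith))
    (fun q (j : 0 < W.X.τ q - (g.δ₂ + s)) => g.r.mem_tgt (show g.α < W.X.τ q by linarith))
    fun p j => by rw [g.r.tm p (g.r.src.le j)]; exact show c₂.X.τ p + _ - _ = c₂.X.τ p - s by ring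
  have m₁ : ∀ p, W₁.X.τ p ≤ g.α - g.δ₁ → k₁.tm p ≤ 0 := fun p j =>
    (t₁ p).trans_le (f₁.symm_apply_le.2 (z₁ ▸ j))
  have m : ∀ p, W.X.τ p ≤ g.α → o'.tm p ≤ 0 := fun p j => show W.X.τ p - _ ≤ 0 by linarith
  refine ⟨⟨i₁, k₁, fun p j => m₁ p (h₁ p j), fun R => let ⟨_, j⟩ := l₁ R
      cptW W₁ (ec_cont _) k₁.cont j fun p j => f₁.symm_apply_le.1 ((t₁ p).ge.trans j)⟩,
    ⟨k₂, o₂, fun p j => show c₂.X.τ p - s ≤ 0 by linarith [f₂.symm_apply_lt.1 ((t₂ p).ge.trans_lt j)], fun R =>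
      cptW c₂.toW4 k₂.cont o₂.cont (fun p j => f₂.le_symm_apply.1 (j.trans (t₂ p).le)) fun p =>
        sub_le_iff_le_add.1⟩,
    ⟨i, o', fun p j => m p (h p j), fun R => let ⟨_, j⟩ := l R
      cptW W (ec_cont _) o'.cont j fun p => sub_le_iff_le_add.1⟩,
    ⟨g', by rw [el]; exact mt, by rw [er]; exact fun _ _ _ _ => rfl, Equiv.equivOfIsEmpty _ _,
      fun j => j.elim0, fun j => j.elim0⟩, rfl, rfl, a₁, ⟨a₂, _, .of_forall fun _ _ => rfl⟩,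
    ag_sh ag (tendsto_atTop_add_const_right _ s tendsto_id), el, er, m₁, m⟩

theorem rs_of {ko : TIso B.cyl W₁.X (Ioi b)} {ki : TIso B.cyl W₂.X (Iio a)} {g : Gl W₁ W₂ W ko ki}
    {k₁ : Nc B (m4 W₁) (Ioi 0)} {k₂ : Nc B (m4 W₂) (Iio 0)} {g' : Gl3 k₁ k₂ (m4 W)}
    (el : g'.l = g.l.φ) (er : g'.r = g.r.φ) (d d₁ d₂) (h : g.Rs d d₁ d₂) : g'.Rl d d₁ ∧ g'.Rr d d₂ := by
  rw [Gl3.Rl, Gl3.Rr, el, er, g.l.src, g.r.src]
  exact h

/-- **GEO-GLN** -/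
theorem gln : GlnStmt where
  c c₁ c₂ c g hi ho := by
    obtain ⟨s, s₁, s₂⟩ : ∃ s, s ≤ c₁.a ∧ s ≤ g.α - g.δ₁ := ⟨_, min_le_left _ _, min_le_right _ _⟩
    have lt := g.lt
    let i₁ := inT _ c₁.ki c₁.pi s₁
    let i := push (X' := m4 c.toW4) i₁ g.l.φ (g.pl.mono g.l.src.le) (fun q => c.X.τ q - (g.δ₁ + s))
      (c.X.cont.sub continuous_const)
      (fun p (j : c₁.X.τ p - s < 0) => g.l.mem_src (show c₁.X.τ p + g.δ₁ < g.β by linarith))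
      (fun q (j : c.X.τ q - (g.δ₁ + s) < 0) => g.l.mem_tgt (show c.X.τ q < g.β by linarith))
      fun p j => by rw [g.l.tm p (g.l.src.le j)]; exact show c₁.X.τ p + _ - _ = c₁.X.τ p - s by ring
    obtain ⟨e₁, e₂, e, g', r₁, r, a₁, a₂, a₃, el, er, -⟩ := gln0 (x := some _) c₂ c₁.po g i₁ i
      (fun _ _ _ _ => rfl) (fun p (j : c₁.X.τ p - s < 0) => by linarith)
      (fun q (j : c.X.τ q - (g.δ₁ + s) < 0) => by linarith) (fun R => ⟨_, fun p => le_sub_iff_add_le.1⟩)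
      (fun R => ⟨_, fun p => le_sub_iff_add_le.1⟩) ho
    exact ⟨e₁, e₂, e, g', ⟨r₁ ▸ ⟨_, .of_forall fun _ _ => rfl⟩, a₁⟩, a₂,
      ⟨r ▸ ag_sh hi (tendsto_atBot_add_const_right _ s tendsto_id), a₃⟩, rs_of el er⟩
  p c₁ c₂ c g ho := fun ⟨x₁, x₂, x₃⟩ => by
    obtain ⟨e₁, e₂, e, g', -, -, a₁, a₂, a₃, el, er, m₁, m⟩ := gln0 (x := none) c₂ c₁.po g () ()
      trivial (fun _ j => (lt_irrefl _ j).elim) (fun _ j => (lt_irrefl _ j).elim)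
      (fun _ => c₁.lo.imp fun _ j p _ => j p) (fun _ => c.lo.imp fun _ j p _ => j p) ho
    refine ⟨e₁, e₂, e, g', ⟨a₁, cs_of c₁.cs (fun p j => x₂ p (sub_lt_iff_lt_add.1 j)) fun p j =>
      ⟨le_rfl, m₁ p j, le_rfl⟩⟩, a₂, ⟨a₃, cs_of c.cs x₃ fun p j => ⟨le_rfl, m p j, le_rfl⟩⟩,
      ⟨fun p j => ?_, fun p j => ?_⟩, rs_of el er⟩
    · have := g'.ls.ge (show _ < (4 : ℝ) from j.trans (by norm_num))
      rw [el] at this ⊢
      exact x₁ p (g.l.src.le this)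
    · have := g'.rs.ge (show (-4 : ℝ) < _ from lt_trans (by norm_num) j)
      rw [er] at this ⊢
      exact (congrArg _ (x₃ _ (g.r.mem (g.r.src.le this)))).trans (map_zero _)

end Crest.Agent.X212.Geo7
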